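import Vale.Agent.P092PK.Ptk
import Vale.Agent.P092EN.Fin
import Vale.Agent.P092GK.Ns
import Vale.Agent.P092RD.Agr
import Vale.Agent.P092CP.Pos
import Vale.Agent.P092CP.InstF

/-!
P092, higher rank (helper22): a leg from a boundary measure whose translates commute.
-/

set_option linter.all false

open scoped InnerProductSpace ENNReal NNReal
open Filter Topology Set MeasureTheory ContinuousLinearMap

namespace Vale.Agent.P092PK

open Vale.Agent.P092CP Vale.Agent.P092RD Vale.Agent.P092EN Vale.Agent.P092GK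
open Vale.Agent.P092.RC (Cm)

variable {G G' K : Type} [Group G] [TopologicalSpace G] [IsTopologicalGroup G]
  [LocallyCompactSpace G] [SecondCountableTopology G] [T2Space G] [MeasurableSpace G] [BorelSpace G]
  [Group G'] [TopologicalSpace G'] [IsTopologicalGroup G'] [LocallyCompactSpace G']
  [SecondCountableTopology G'] [T2Space G'] [MeasurableSpace G'] [BorelSpace G']
  [NormedAddCommGroup K] [InnerProductSpace ℂ K] [CompleteSpace K] {μ : Measure G}
  [μ.IsHaarMeasure] {μ' : Measure G'} [μ'.IsHaarMeasure] {W : Set (K →L[ℂ] K)}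
  {Y : Type} [TopologicalSpace Y] [CompactSpace Y] [T2Space Y] [MeasurableSpace Y] [BorelSpace Y]
  [MulAction G' Y] [ContinuousSMul G' Y] {E : POM Y K}

/-- no vector is killed by all the translates of the projection of an open set -/
def Nd (π : G →* (K →L[ℂ] K)) (E : POM Y K) : Prop :=
  ∀ U, IsOpen U → U.Nonempty → ∀ ξ, ξ ≠ 0 → ∃ g, E.P U (π g ξ) ≠ 0

theorem exists_list (S : Side μ W) (hE : E.IsP) (nd : Nd S.π E) (l : List (Set Y))
    (hl : ∀ U ∈ l, IsOpen U ∧ U.Nonempty) : ∃ l' : List (G × C(Y, ℂ)), (∀ p ∈ l', star p.2 = p.2) ∧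
      (l'.map fun p => S.π p.1 * E.f p.2 * S.π p.1⁻¹).prod S.Ω ≠ 0 ∧
      ∀ U ∈ l, ∃ p ∈ l', ∀ y, p.2 y ≠ 0 → y ∈ U := by
  induction l with
  | nil =>
    refine ⟨[], fun _ h => by simp at h, fun e => ?_, fun _ h => by simp at h⟩
    have := S.nΩ
    rw [show S.Ω = 0 from e, norm_zero] at this
    exact zero_ne_one this
  | cons U l ih =>
    obtain ⟨l', h1, h2, h3⟩ := ih fun V hV => hl V (List.mem_cons_of_mem _ hV)
    obtain ⟨hU, y, hy⟩ := hl U List.mem_cons_self
    obtain ⟨A, a1, a2, a3⟩ := exists_mem_nhds_isClosed_subset (hU.mem_nhds hy)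
    obtain ⟨f, f1, -, f2, -⟩ := exists_continuousMap_one_of_isCompact_subset_isOpen a2.isCompact hU a3
    obtain ⟨g, hg⟩ := nd _ isOpen_interior ⟨y, mem_interior_iff_mem_nhds.2 a1⟩ _ h2
    let f' : C(Y, ℂ) := ⟨fun y => (f y : ℂ), by fun_prop⟩
    have e : E.P (interior A) = E.P (interior A) * E.f f' := by
      rw [hE.P_mul_f isOpen_interior.measurableSet (bd_c _)]
      exact congrArg _ (indicator_congr fun z hz => by
        show (1 : ℂ) = (f z : ℂ)
        rw [f1 (interior_subset hz)]; rfl)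
    refine ⟨(g⁻¹, f') :: l', fun p hp => ?_, fun e0 => hg ?_, fun V hV => ?_⟩
    · rcases List.mem_cons.1 hp with rfl | hp
      · ext y; exact Complex.conj_ofReal _
      · exact h1 p hp
    · rw [List.map_cons, List.prod_cons, mapp, mapp, mapp, inv_inv] at e0
      have e1 := congrArg (S.π g) e0
      rw [pi_ap_inv, map_zero] at e1
      rw [e, mapp, e1, map_zero]
    · rcases List.mem_cons.1 hV with rfl | hV
      · exact ⟨_, List.mem_cons_self, fun z hz => f2 (subset_tsupport _ (Complex.ofReal_ne_zero.1 hz))⟩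
      · obtain ⟨p, p1, p2⟩ := h3 V hV
        exact ⟨p, List.mem_cons_of_mem _ p1, p2⟩

theorem cov_hom {ρ : G' →* (K →L[ℂ] K)} (hE : E.IsP) (cov : P092RD.Cov ρ E) :
    P092EN.Cov ρ hE.hom := fun x f f' e =>
  (cov x _ (bd_c f)).trans (congrArg _ (funext fun y => by rw [← e, smul_inv_smul]))

/-- **A leg from a boundary measure** -/
theorem culeg_of_pk (C : Cpl μ μ' W) (hE : E.IsP) (cm : ∀ f, Bd f → Cm W (E.f f))
    (cov : P092RD.Cov C.t.π E)
    (com : ∀ g (f f' : C(Y, ℂ)), E.f f * (C.s.π g * E.f f' * C.s.π g⁻¹) =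
      (C.s.π g * E.f f' * C.s.π g⁻¹) * E.f f)
    (nd : Nd C.s.π E) (pk : PK G' Y) {S : Type} [Group S] {ι : S →* G} (sol : Group.IsSolvable S)
    (uq : UQ (C.s.π.comp ι) C.t.π W fun f : C(Y, ℂ) => E.f f) :
    ∃ D, CULeg C.s.π C.t.π W D ι hE.hom := by
  obtain ⟨l, h1, L, hL, h2⟩ := pk
  obtain ⟨l', a, b, c⟩ := exists_list C.s hE nd l h1
  refine culeg_of_list C.s.adj C.t.adj C.comm C.s.conj (fun f => cm _ (bd_c f)) (cov_hom hE cov)
    com sol uq l' a (fun e => b (ap_eq e _)) hL fun g hg => ?_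
  by_contra hn
  push Not at hn
  refine hg (h2 g fun U hU => ?_)
  obtain ⟨p, p1, p2⟩ := c U hU
  obtain ⟨y, y1, y2⟩ := hn p p1
  exact ⟨y, p2 _ y1, p2 _ y2⟩

variable {k : Type} [NontriviallyNormedField k] [ProperSpace k] {r : ℕ} {F : FlD k G' r}

/-- the output of higher rank, for one coupling -/
structure Out (F : FlD k G' r) [MeasurableSpace (F.Y Finset.univ)] (C : Cpl μ μ' W)
    (E : POM (F.Y Finset.univ) K) : Prop where
  isP : E.IsP
  cm : ∀ f, Bd f → Cm W (E.f f)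
  cov : P092RD.Cov C.t.π E
  com : ∀ g (f f' : C(F.Y Finset.univ, ℂ)), E.f f * (C.s.π g * E.f f' * C.s.π g⁻¹) =
    (C.s.π g * E.f f' * C.s.π g⁻¹) * E.f f
  nd : ∀ U, IsOpen U → U.Nonempty → ∀ ξ, ξ ≠ 0 → ∃ g, E.P U (C.s.π g ξ) ≠ 0
  uq : ∃ S : Subgroup G, Group.IsSolvable S ∧ ∀ [CompactSpace (F.Y Finset.univ)],
    UQ (C.s.π.comp S.subtype) C.t.π W fun f : C(F.Y Finset.univ, ℂ) => E.f f

theorem hasLeg_of_out (h : Fl F) (j : Fin r) [MeasurableSpace (F.Y Finset.univ)]
    [BorelSpace (F.Y Finset.univ)]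
    (H : ∀ (K : Type) [NormedAddCommGroup K] [InnerProductSpace ℂ K] [CompleteSpace K]
      (W : Set (K →L[ℂ] K)) (C : Cpl μ μ' W), ∃ E, Out F C E) : HasLeg μ μ' := by
  intro K _ _ _ W C
  obtain ⟨E, o⟩ := H K W C
  obtain ⟨S, sol, uq⟩ := o.uq
  haveI := h.compactY Finset.univ
  haveI := h.isClosed_P Finset.univ
  obtain ⟨D, hD⟩ := culeg_of_pk C o.isP o.cm o.cov o.com o.nd (pk h j) sol uq
  exact ⟨_, _, _, _, inferInstance, inferInstance, _, inferInstance, _, D, _, hD, h.ns⟩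

/-- **Higher rank**: the core statement from the output -/
theorem over_of_out {F : FlD k G r} (h : Fl F) (j : Fin r) [MeasurableSpace (F.Y Finset.univ)]
    [BorelSpace (F.Y Finset.univ)]
    (H : ∀ (K : Type) [NormedAddCommGroup K] [InnerProductSpace ℂ K] [CompleteSpace K]
      (W : Set (K →L[ℂ] K)) (C : Cpl μ μ W), ∃ E, Out F C E) : P092.H678.OV.OverStmt G :=
  overStmt_of_hasLeg inst (hasLeg_of_out h j H)

end Vale.Agent.P092PK
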