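import Vale.Agent.P092GK.Flag
import Vale.Agent.P092GK.Kak
import Vale.Agent.P092GK.Gauge

/-!
P092, higher rank (helper22): the action on the flag space is proper on frames.
-/

set_option linter.all false

open Filter Topology Set

namespace Vale.Agent.P092PK

open Vale.Agent.P092GK Vale.Agent.P092GK.FlD

/-- finitely many open sets which are not all preserved by a large element -/
def PK (G Y : Type) [Group G] [TopologicalSpace G] [TopologicalSpace Y] [MulAction G Y] : Prop :=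
  ∃ l : List (Set Y), (∀ U ∈ l, IsOpen U ∧ U.Nonempty) ∧
    ∃ L : Set G, IsCompact L ∧ ∀ g, (∀ U ∈ l, ∃ y ∈ U, g • y ∈ U) → g ∈ L

variable {k : Type} [NontriviallyNormedField k] {G : Type} [Group G] {r : ℕ} {F : FlD k G r}
  [TopologicalSpace G] [IsTopologicalGroup G] [T2Space G] [ProperSpace k]

theorem loc (h : Fl F) (j : Fin r) {T : F.E j →L[k] F.E j} (hT : T ≠ 0) :
    ∃ N ∈ 𝓝 T, ∃ U : Set (F.Y Finset.univ), (IsOpen U ∧ U.Nonempty) ∧ ∃ c : ℝ, 0 ≤ c ∧
      ∀ (g : G) (d : k), d • F.V j g ∈ N → (∃ y ∈ U, g • y ∈ U) →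
        ∀ x, ‖x‖ ≤ c * ‖(d • F.V j g) x‖ := by
  by_cases hi : LinearMap.ker T.toLinearMap = ⊥
  · obtain ⟨c, c0, hc⟩ := LinearMap.exists_antilipschitzWith T.toLinearMap hi
    have c1 : (0 : ℝ) < c := c0
    refine ⟨_, Metric.ball_mem_nhds T (ε := 1 / (2 * c)) (by positivity), univ,
      ⟨isOpen_univ, ((1 : G) : F.Y _), mem_univ _⟩, 2 * c, by positivity, fun g d hd _ x => ?_⟩
    generalize d • F.V j g = T' at hd
    have e1 : ‖x‖ ≤ c * ‖T x‖ := ZeroHomClass.bound_of_antilipschitz T.toLinearMap hc x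
    have e2 : ‖T x‖ ≤ ‖T' x‖ + 1 / (2 * c) * ‖x‖ := by
      have e3 := (T' - T).le_of_opNorm_le (mem_ball_iff_norm.1 hd).le x
      rw [ContinuousLinearMap.sub_apply] at e3
      linarith [norm_sub_norm_le (T x) (T' x), norm_sub_rev (T x) (T' x)]
    have e4 : (c : ℝ) * (1 / (2 * c) * ‖x‖) = ‖x‖ / 2 := by field_simp
    nlinarith [mul_le_mul_of_nonneg_left e2 c1.le]
  · have e1 : LinearMap.range T.toLinearMap < ⊤ := lt_top_iff_ne_top.2 fun e =>
      hi (LinearMap.ker_eq_bot_iff_range_eq_top.2 e)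
    obtain ⟨ψ, ψ0, hψ⟩ := Submodule.exists_le_ker_of_lt_top _ e1
    have cψ : Continuous ψ := LinearMap.continuous_of_finiteDimensional ψ
    obtain ⟨f, f1, f2⟩ := ((h.dense_ne j T.toLinearMap fun e =>
      hT (ContinuousLinearMap.coe_injective e)).inter_of_isOpen_right (h.dense_ne j ψ ψ0)
      (isOpen_ne_fun (cψ.comp (h.contVv j)) continuous_const)).nonempty
    have c1 : Continuous fun q : (F.E j →L[k] F.E j) × G × G => q.1 (F.V j q.2.1 (F.v j)) :=
      continuous_fst.clm_apply ((h.contVv j).comp (by fun_prop))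
    have c2 : Continuous fun q : (F.E j →L[k] F.E j) × G × G => F.V j q.2.2 (F.v j) :=
      (h.contVv j).comp (by fun_prop)
    have o := (isOpen_lt ((cψ.comp c1).norm.mul c2.norm) (c1.norm.mul (cψ.comp c2).norm)).mem_nhds
      (x := (T, f, f)) (by
        have e2 : ψ (T (F.V j f (F.v j))) = 0 := hψ ⟨_, rfl⟩
        show ‖ψ (T (F.V j f (F.v j)))‖ * _ < ‖T (F.V j f (F.v j))‖ * ‖ψ (F.V j f (F.v j))‖
        rw [e2, norm_zero, zero_mul]
        exact mul_pos (norm_pos_iff.2 f1) (norm_pos_iff.2 f2))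
    obtain ⟨N, hN, O, hO, hs⟩ := mem_nhds_prod_iff.1 o
    obtain ⟨O₁, o4, o5, o2⟩ := exists_nhds_square hO
    refine ⟨N, hN, (fun x : G => (x : F.Y Finset.univ)) '' O₁,
      ⟨QuotientGroup.isOpenMap_coe _ o4, _, f, o5, rfl⟩, 0, le_rfl, ?_⟩
    rintro g d hd ⟨_, ⟨x, hx, rfl⟩, x', hx', e⟩
    obtain ⟨a, ha⟩ := QuotientGroup.eq.1 (e.trans (smul_mk g x)) j (Finset.mem_univ j)
    have e3 : (d • F.V j g) (F.V j x (F.v j)) = (d * a) • F.V j x' (F.v j) := by
      rw [ContinuousLinearMap.smul_apply, mul_smul, ← map_smul _ a, ← ha, ← V_mul, ← V_mul,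
        mul_inv_cancel_left]
    have e4 : ‖ψ ((d • F.V j g) (F.V j x (F.v j)))‖ * ‖F.V j x' (F.v j)‖ <
        ‖(d • F.V j g) (F.V j x (F.v j))‖ * ‖ψ (F.V j x' (F.v j))‖ :=
      hs (mk_mem_prod hd (o2 (mk_mem_prod hx hx')))
    rw [e3, map_smul, norm_smul, norm_smul] at e4
    exact absurd e4 (not_lt.2 (le_of_eq (by ring)))

/-- **Properness on frames** -/
theorem pk (h : Fl F) (j : Fin r) : PK G (F.Y Finset.univ) := by
  classical
  obtain ⟨p, hp⟩ := NormedField.exists_one_lt_norm k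
  haveI : ProperSpace (F.E j →L[k] F.E j) := FiniteDimensional.proper k _
  have hS : IsCompact {T : F.E j →L[k] F.E j | 1 / ‖p‖ ≤ ‖T‖ ∧ ‖T‖ ≤ 1} :=
    (isCompact_closedBall (0 : F.E j →L[k] F.E j) 1).of_isClosed_subset
      ((isClosed_le continuous_const continuous_norm).inter
        (isClosed_le continuous_norm continuous_const)) fun T hT => by simpa using hT.2
  have hp0 : 0 < 1 / ‖p‖ := by positivity
  choose! N hN U hU c c0 hc using fun (T : F.E j →L[k] F.E j) (hT : T ≠ 0) => loc h j hT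
  have n0 : ∀ T ∈ {T : F.E j →L[k] F.E j | 1 / ‖p‖ ≤ ‖T‖ ∧ ‖T‖ ≤ 1}, T ≠ 0 := fun T hT =>
    norm_pos_iff.1 (hp0.trans_le hT.1)
  obtain ⟨t, t1, t2⟩ := hS.elim_nhds_subcover N fun T hT => hN T (n0 T hT)
  obtain ⟨A, hA, hA'⟩ := cpt_up (isCompact_singleton (x := ())) (fun (q : t) _ => c q)
    fun _ => continuousOn_const
  obtain ⟨C, -, hC⟩ := h.κ_low
  refine ⟨t.toList.map U, fun V hV => ?_, _,
    h.cpt_lam j (Real.log A - F.ω (fun _ => -C) j), fun g hg => ?_⟩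
  · obtain ⟨T, h1, rfl⟩ := List.mem_map.1 hV
    exact hU T (n0 T (t1 T (Finset.mem_toList.1 h1)))
  obtain ⟨d, d0, d1, d2, -⟩ := rescale_to_shell hp one_pos (h.V_ne j g)
  obtain ⟨T, h1, h2⟩ := mem_iUnion₂.1 (t2 (a := d • F.V j g) ⟨d2, d1.le⟩)
  have e1 := hc T (n0 T (t1 T h1)) g d h2 (hg _ (List.mem_map.2 ⟨T, Finset.mem_toList.2 h1, rfl⟩))
  have e2 : ‖F.V j g⁻¹‖ ≤ A * ‖d‖ := ContinuousLinearMap.opNorm_le_bound _ (by positivity) fun x => by
    have e3 := e1 (F.V j g⁻¹ x)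
    rw [ContinuousLinearMap.smul_apply, V_inv', norm_smul] at e3
    exact e3.trans (by rw [mul_assoc]; gcongr; exact hA' ⟨T, h1⟩ () rfl)
  have e4 : F.lam g j + F.lam g⁻¹ j ≤ Real.log A := by
    rw [Real.le_log_iff_exp_le (by linarith), Real.exp_add, h.exp_lam, h.exp_lam]
    rw [norm_smul] at d1
    nlinarith [norm_nonneg (F.V j g), mul_le_mul_of_nonneg_left e2 (norm_nonneg (F.V j g))]
  have e5 := h.ω_mono (x := fun _ => -C) (fun i => hC g⁻¹ i) j
  rw [h.ω_κ] at e5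
  show F.lam g j ≤ _
  linarith

end Vale.Agent.P092PK
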